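import Crest.Agent.X212.Dgr80.Win
import Crest.Agent.X212.Dgr80.Cf
import Crest.Agent.X212.Cyc79.Lg
import Crest.Agent.X212.Cyl58.SmB
import Crest.Agent.X212.Cyf70.Kp
import Crest.Agent.X212.Nka63.A

-- ▼ part X212/Lg24/Sch
section

/-!
# Row 212, KP-LG (helper24): Schur test for the window, smoothing of Lipschitz functions
-/

set_option autoImplicit false
set_option linter.unusedSectionVars false
noncomputable section
open scoped Topology ContDiff
open MeasureTheory Set Filter Real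

namespace Crest.Agent.X212.Lg24
open Dgr80

variable {δ : ℝ}

theorem ker_le (hδ : 0 < δ) (u : ℝ) : exp (δ / 2 * |u|) * b δ u ≤ 8 * b (δ / 2) u := by
  have h1 := mul_le_mul_of_nonneg_left (b_le_exp hδ u) (exp_pos (δ / 2 * |u|)).le
  rw [mul_left_comm, ← exp_add, show δ / 2 * |u| + -(δ * |u|) = -(δ / 2 * |u|) by ring] at h1
  linarith [b_ge (half_pos hδ) u]

section schur
variable {M : Type*} [MeasurableSpace M] {μ : Measure M} {τ : M → ℝ} {w : ℝ → ℝ} {g : M → ℝ}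
  {V K : ℝ}

theorem wn_sub (hδ : 0 < δ) {h : M → ℝ} (hg : WI μ τ δ g) (hh : WI μ τ δ h) (t : ℝ) :
    wn μ τ δ (fun x => g x - h x) t = wn μ τ δ g t - wn μ τ δ h t := by
  simp only [wn, smul_sub]
  exact integral_sub (hg.int hδ t) (hh.int hδ t)

theorem wi_bd (hδ : 0 < δ) (h1 : WI μ τ δ fun _ => (1 : ℝ)) (hg : AEStronglyMeasurable g μ)
    (hK : ∀ x, |g x| ≤ K) : WI μ τ δ g := h1.mono hδ hg (C := K) fun x => by simpa using hK x

theorem wn_sq (hδ : 0 < δ) (h1 : WI μ τ δ fun _ => (1 : ℝ)) {t : ℝ}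
    (hV : wn μ τ δ (fun _ => (1 : ℝ)) t ≤ V) (hg : WI μ τ δ g) (h2 : WI μ τ δ fun x => g x ^ 2) :
    wn μ τ δ g t ^ 2 ≤ V * wn μ τ δ (fun x => g x ^ 2) t := by
  have := discrim_le_zero (a := V) (b := -2 * wn μ τ δ g t) (c := wn μ τ δ (fun x => g x ^ 2) t)
    fun l => by
      have e := integral_mono ((hg.int hδ t).const_mul (2 * l))
        (((h1.int hδ t).const_mul (l * l)).add (h2.int hδ t)) fun x => by
          simp only [Pi.add_apply, smul_eq_mul]
          nlinarith [mul_nonneg (b_pos hδ (τ x - t)).le (sq_nonneg (g x - l))]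
      simp only [Pi.add_apply] at e
      rw [integral_add ((h1.int hδ t).const_mul _) (h2.int hδ t), integral_const_mul,
        integral_const_mul] at e
      have := mul_le_mul_of_nonneg_left hV (mul_self_nonneg l)
      simp only [wn] at this ⊢
      linarith
  rw [discrim] at this
  linarith

/-- **Schur test** -/
theorem schur [SFinite μ] (hδ : 0 < δ) (h1 : WI μ τ δ fun _ => (1 : ℝ))
    (hV : ∀ t, wn μ τ δ (fun _ => (1 : ℝ)) t ≤ V) (cw : Continuous w) (w0 : ∀ t, 0 ≤ w t)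
    (hw : ∀ s t, w t ≤ exp (δ / 2 * |s - t|) * w s) (hg : AEStronglyMeasurable g μ)
    (hK : ∀ x, |g x| ≤ K) (hi : Integrable (fun x => w (τ x) * g x ^ 2) μ) :
    Integrable (fun t => w t * wn μ τ δ g t ^ 2) ∧
      ∫ t, w t * wn μ τ δ g t ^ 2 ≤ 8 * V * ∫ x, w (τ x) * g x ^ 2 ∂μ := by
  have h2 := wi_bd hδ h1 hg hK
  have h3 := wi_bd hδ h1 (hg.pow 2) (K := K ^ 2) fun x => by
    simpa using pow_le_pow_left₀ (abs_nonneg _) (hK x) 2
  have V0 : 0 ≤ V := (wn_nonneg hδ (fun _ => zero_le_one) 0).trans (hV 0)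
  obtain ⟨i1, i2⟩ := integral_wn (half_pos hδ) h1.τm hi
  have le : ∀ t, w t * wn μ τ δ g t ^ 2 ≤
      8 * V * wn μ τ (δ / 2) (fun x => w (τ x) * g x ^ 2) t := fun t => by
    refine (mul_le_mul_of_nonneg_left (wn_sq hδ h1 (hV t) h2 h3) (w0 t)).trans ?_
    rw [mul_left_comm, mul_comm 8, mul_assoc]
    refine mul_le_mul_of_nonneg_left ?_ V0
    rw [wn, wn, ← integral_const_mul, ← integral_const_mul]
    refine integral_mono ((h3.int hδ t).const_mul _) (((WI.of_integrable (half_pos hδ) h1.τm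
      hi).int (half_pos hδ) t).const_mul _) fun x => ?_
    have a := mul_le_mul_of_nonneg_right (hw (τ x) t) (b_pos hδ (τ x - t)).le
    have c := mul_le_mul_of_nonneg_left (ker_le hδ (τ x - t)) (w0 (τ x))
    simp only [smul_eq_mul]
    nlinarith [mul_le_mul_of_nonneg_right (show w t * b δ (τ x - t) ≤
      8 * b (δ / 2) (τ x - t) * w (τ x) by linarith) (sq_nonneg (g x))]
  have i3 := (i1.const_mul (8 * V)).mono' (cw.mul ((h2.contDiff_wn hδ).continuous.pow
    2)).aestronglyMeasurable (.of_forall fun t =>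
      (Real.norm_of_nonneg (mul_nonneg (w0 t) (sq_nonneg _))).trans_le (le t))
  exact ⟨i3, (integral_mono i3 (i1.const_mul _) le).trans_eq (by rw [integral_const_mul, i2])⟩

end schur

/-- smoothing of a Lipschitz function -/
theorem smooth {ψ : ℝ → ℝ} {d : ℝ} (hc : Continuous ψ) (d0 : 0 ≤ d)
    (h : ∀ s t, |ψ s - ψ t| ≤ d * |s - t|) : ∃ χ : ℝ → ℝ, ContDiff ℝ ∞ χ ∧
      (∀ t, |χ t - ψ t| ≤ 16 * d) ∧ ∀ k t, |iteratedDeriv (k + 1) χ t| ≤ cb 1 (k + 1) * (16 * d) := by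
  have k1 : ∀ t s, b 1 (s - t) * ‖ψ s - ψ t‖ ≤ 16 * d * b (1 / 2) (s - t) := fun t s => by
    have a1 := mul_le_mul_of_nonneg_left (ker_le one_pos (s - t)) d0
    have a2 := mul_le_mul_of_nonneg_left (h s t) (b_pos one_pos (s - t)).le
    have a3 := mul_le_mul_of_nonneg_left (add_one_le_exp (1 / 2 * |s - t|))
      (mul_nonneg d0 (b_pos one_pos (s - t)).le)
    rw [Real.norm_eq_abs]
    nlinarith [mul_nonneg d0 (b_pos one_pos (s - t)).le]
  have i1 : ∀ t, Integrable fun s => b (1 / 2) (s - t) := fun t =>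
    (integrable_b one_half_pos).comp_sub_right t
  have w1 := wi_of_bdd one_pos (c := fun _ => 1) aestronglyMeasurable_const (C := 1) (by simp)
  have w0 : WI volume id 1 fun s => ψ s - ψ 0 := ⟨w1.τm, (hc.sub continuous_const).aestronglyMeasurable,
    ((i1 0).const_mul (16 * d)).mono' ((continuous_b 1).mul
      (hc.sub continuous_const).norm).aestronglyMeasurable (.of_forall fun s => by
        rw [Real.norm_of_nonneg (mul_nonneg (b_pos one_pos _).le (norm_nonneg _))]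
        simpa using k1 0 s)⟩
  have wt : ∀ c : ℝ, WI volume id 1 fun s => ψ s - c := fun c =>
    ⟨w1.τm, (hc.sub continuous_const).aestronglyMeasurable, (w0.i.add (w1.i.mul_const |ψ 0 - c|)).mono'
      ((continuous_b 1).mul (hc.sub continuous_const).norm).aestronglyMeasurable (.of_forall fun s => by
        rw [Real.norm_of_nonneg (mul_nonneg (b_pos one_pos _).le (norm_nonneg _))]
        simpa [mul_add] using mul_le_mul_of_nonneg_left (abs_sub_le (ψ s) (ψ 0) c) (b_pos one_pos s).le)⟩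
  have k2 : ∀ t, wn volume id 1 (fun s => ‖ψ s - ψ t‖) t ≤ 16 * d := fun t =>
    (integral_mono ((wt _).norm.int one_pos t) ((i1 t).const_mul _) (k1 t)).trans_eq (by
      rw [integral_const_mul, integral_sub_right_eq_self, integral_b one_half_pos, mul_one])
  have e : ∀ c, wn volume id 1 (fun s => ψ s - 0) = fun t => wn volume id 1 (fun s => ψ s - c) t + c :=
    fun c => funext fun t => by
      have := wn_sub one_pos (wt 0) (wt c) t
      simp only [sub_zero, sub_sub_cancel] at this ⊢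
      rw [← cv_eq_wn, cv, integral_const_mul, integral_b_sub one_pos] at this
      linarith
  refine ⟨_, (wt 0).contDiff_wn one_pos, fun t => ?_, fun k t => ?_⟩
  · rw [e (ψ t), add_sub_cancel_right]
    exact ((wt _).norm_wn_le one_pos t).trans (k2 t)
  · rw [e (ψ t), iteratedDeriv_succ', deriv_add_const', ← iteratedDeriv_succ',
      (wt _).iteratedDeriv_wn one_pos]
    exact ((wt _).norm_wnd_le one_pos _ t).trans (mul_le_mul_of_nonneg_left (k2 t) (cb_nonneg _ _))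

end Crest.Agent.X212.Lg24
end
end

-- ▼ part X212/Lg24/Dg
section

/-!
# Row 212, KP-LG (helper24): Lipschitz bound and gradient identity for the delay functional
-/

set_option autoImplicit false
set_option linter.unusedSectionVars false
noncomputable section
open scoped Manifold ContDiff Topology InnerProductSpace
open MeasureTheory Set Function Filter Real

namespace Crest.Agent.X212.Lg24
open An Dgr80

variable {E : Type} [NormedAddCommGroup E] [NormedSpace ℝ E] [FiniteDimensional ℝ E]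
  [MeasurableSpace E] [BorelSpace E]
  {HM : Type} [TopologicalSpace HM] {I : ModelWithCorners ℝ E HM} [I.Boundaryless]
  {M : Type} [TopologicalSpace M] [ChartedSpace HM M] [IsManifold I ∞ M]
  [MeasurableSpace M] [T2Space M] [BorelSpace M] [SecondCountableTopology M]
  {ι : Type} [Fintype ι] {F : Fr I M ι} {J K : Type} [Fintype K] [DecidableEq K]
  {U P : Type} [NormedAddCommGroup U] [InnerProductSpace ℝ U] [CompleteSpace U]
  [NormedAddCommGroup P] [InnerProductSpace ℝ P]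
  {X : Cx F J} {τ : M → ℝ} {δ V R : ℝ} {w g g' : J → ℝ → ℝ}

variable (X τ δ V w) in
/-- the time function of a product and weights which are functions of time -/
structure Slab : Prop where
  δ0 : 0 < δ
  sf : SFinite F.μ
  ct : Continuous τ
  int : ∀ k : ℝ → ℝ, Integrable k →
    Integrable (fun x => k (τ x)) F.μ ∧ ∫ x, k (τ x) ∂F.μ = V * ∫ t, k t
  cb : ∀ f : ℝ → ℝ, ContDiff ℝ ∞ f → (∀ k, ∃ C, ∀ t, |iteratedDeriv k f t| ≤ C) →
    F.Cb fun x => f (τ x)
  eq : ∀ j x, X.W j x = w j (τ x)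
  cw : ∀ j, Continuous (w j)
  nn : ∀ j t, 0 ≤ w j t
  lip : ∀ j s t, w j t ≤ exp (δ / 2 * |s - t|) * w j s

variable (X w) in
/-- bounded functions of time with `∫ w j g² ≤ C D j` -/
def T2 (g : J → ℝ → ℝ) : Prop := (∀ j, Continuous (g j)) ∧ (∃ R, ∀ j t, |g j t| ≤ R) ∧
  ∃ C, 0 ≤ C ∧ ∀ j, LB volume (fun t => w j t * g j t ^ 2) (C * X.D j)

namespace Slab
variable (S : Slab X τ δ V w)
include S

theorem one (t : ℝ) : wn F.μ τ δ (fun _ => (1 : ℝ)) t = V := by
  simpa [wn, integral_sub_right_eq_self, integral_b S.δ0] using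
    (S.int _ ((integrable_b S.δ0).comp_sub_right t)).2

theorem V0 : 0 ≤ V := (wn_nonneg S.δ0 (fun _ => zero_le_one) 0).trans_eq (S.one 0)

theorem w1 : WI F.μ τ δ fun _ => (1 : ℝ) := ⟨S.ct.aestronglyMeasurable, aestronglyMeasurable_const,
  by simpa using (S.int _ (integrable_b S.δ0)).1⟩

theorem wi {h : M → ℝ} (c : Continuous h) (hR : ∀ x, ‖h x‖ ≤ R) : WI F.μ τ δ h :=
  wi_bd S.δ0 S.w1 c.aestronglyMeasurable hR

theorem wn_le {h : M → ℝ} (hR : ∀ x, ‖h x‖ ≤ R) (t : ℝ) : ‖wn F.μ τ δ h t‖ ≤ |R| * V := by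
  rw [← S.one t, wn, wn, ← integral_const_mul]
  refine norm_integral_le_of_norm_le ((S.w1.int S.δ0 t).const_mul _) (.of_forall fun x => ?_)
  rw [norm_smul, smul_eq_mul, mul_one, mul_comm, Real.norm_of_nonneg (b_pos S.δ0 _).le]
  exact mul_le_mul_of_nonneg_right ((hR x).trans (le_abs_self R)) (b_pos S.δ0 _).le

theorem t2_wn {h : J → M → ℝ} (o : X.O2 h) (hR : ∀ j x, ‖h j x‖ ≤ R) :
    T2 X w fun j => wn F.μ τ δ (h j) := by
  obtain ⟨c, C, C0, o⟩ := o
  simp only [S.eq, Real.norm_eq_abs, sq_abs] at o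
  have := S.sf
  have k := fun j => schur S.δ0 S.w1 (fun t => (S.one t).le) (S.cw j) (S.nn j) (S.lip j)
    (c j).aestronglyMeasurable (hR j) (o j).1
  have := S.V0
  exact ⟨fun j => ((S.wi (c j) (hR j)).contDiff_wn S.δ0).continuous, ⟨_, fun j => S.wn_le (hR j)⟩,
    8 * V * C, by positivity, fun j => ⟨(k j).1, (k j).2.trans
      ((mul_le_mul_of_nonneg_left (o j).2 (by positivity)).trans_eq (by ring))⟩⟩

theorem o2_cv (h : T2 X w g) : X.O2 fun j x => cv δ (g j) (τ x) := by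
  obtain ⟨c, ⟨R, hR⟩, C, C0, o⟩ := h
  have k := fun j => schur (τ := id) S.δ0 (wi_of_bdd S.δ0 aestronglyMeasurable_const (C := 1)
    (by simp)) (fun t => by rw [← cv_eq_wn, cv_one S.δ0]) (S.cw j) (S.nn j) (S.lip j)
    (c j).aestronglyMeasurable (hR j) (o j).1
  simp only [← cv_eq_wn] at k
  have := S.V0
  refine ⟨fun j => (cv_bounds S.δ0 (c j).aestronglyMeasurable (hR j)).1.continuous.comp S.ct,
    V * (8 * C), by positivity, fun j => ?_⟩
  simp only [S.eq, Real.norm_eq_abs, sq_abs]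
  exact ⟨(S.int _ (k j).1).1, (S.int _ (k j).1).2.trans_le ((mul_le_mul_of_nonneg_left ((k j).2.trans
    (mul_le_mul_of_nonneg_left (o j).2 (by norm_num))) this).trans_eq (by ring))⟩

theorem t2_dom {v : K → J → ℝ → ℝ} (h : ∀ i, T2 X w (v i)) (c : ∀ j, Continuous (g j)) {L : ℝ}
    (hL : ∀ j t, |g j t| ≤ L * ‖fun i => v i j t‖) : T2 X w g := by
  choose R hR using fun i => (h i).2.1
  choose C C0 hC using fun i => (h i).2.2
  refine ⟨c, ⟨|L| * ‖R‖, fun j t => (hL j t).trans (mul_le_mul (le_abs_self L)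
    ((pi_norm_le_iff_of_nonneg (norm_nonneg R)).2 fun i => (hR i j t).trans
      ((le_abs_self _).trans (norm_le_pi_norm R i))) (norm_nonneg _) (abs_nonneg L))⟩,
    L ^ 2 * ∑ i, C i, mul_nonneg (sq_nonneg L) (Finset.sum_nonneg fun i _ => C0 i), fun j =>
    (((LB.sum Finset.univ fun i _ => hC i j).mul (sq_nonneg L)).mono
      ((S.cw j).mul ((c j).pow 2)).aestronglyMeasurable
      (fun t => mul_nonneg (S.nn j t) (sq_nonneg _)) fun t => ?_).le
      (by rw [← Finset.sum_mul, mul_assoc])⟩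
  have s0 : 0 ≤ ∑ i, v i j t ^ 2 := by positivity
  have h1 : ‖fun i => v i j t‖ ≤ √(∑ i, v i j t ^ 2) :=
    (pi_norm_le_iff_of_nonneg (sqrt_nonneg _)).2 fun i => Real.abs_le_sqrt
      (Finset.single_le_sum (f := fun i => v i j t ^ 2) (fun _ _ => sq_nonneg _) (Finset.mem_univ i))
  have h2 := pow_le_pow_left₀ (abs_nonneg _) (hL j t) 2
  have h3 := mul_le_mul_of_nonneg_left (pow_le_pow_left₀ (norm_nonneg _) h1 2) (sq_nonneg L)
  rw [sq_abs, mul_pow] at h2
  rw [sq_sqrt s0] at h3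
  rw [← Finset.mul_sum, mul_left_comm]
  exact mul_le_mul_of_nonneg_left (h2.trans h3) (S.nn j t)

end Slab

section defs
variable (F τ δ) (φ : (K → ℝ) → ℝ) (d : K → RD M ι U P)

/-- the window invariants -/
def iv (t : ℝ) : K → ℝ := fun i => wn F.μ τ δ (d i).h t

def co (i : K) (t : ℝ) : ℝ := fderiv ℝ φ (iv F τ δ d t) (Pi.single i 1)

/-- the coefficient functions -/
def bt (i : K) (x : M) : ℝ := cv δ (co F τ δ φ d i) (τ x)

/-- the gradient, connection part -/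
def gA (x : M) : Fm ι U := ∑ i, (d i).gA (bt F τ δ φ d i) x

/-- the gradient, spinor part -/
def gP (x : M) : P := ∑ i, (d i).gP (bt F τ δ φ d i) x

end defs

variable {φ : (K → ℝ) → ℝ} {d : K → RD M ι U P} {d' : J → K → RD M ι U P} {α : J → M → Fm ι U}
  {η : J → M → P}

variable (X τ δ φ d d' α η) in
/-- the conclusion -/
structure Lg (L : ℝ) (w : J → ℝ → ℝ) : Prop where
  A : X.O2 fun j x => gA F τ δ φ (d' j) x - gA F τ δ φ d x
  P : X.O2 fun j x => gP F τ δ φ (d' j) x - gP F τ δ φ d x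
  wA : X.Lw (gA F τ δ φ d)
  wP : X.Lw (gP F τ δ φ d)
  o1 : X.Big → (∀ j t, 1 ≤ L * w j t) →
    (∀ j, Integrable fun t => φ (iv F τ δ (d' j) t) - φ (iv F τ δ d t)) ∧
    X.O1 fun j => (∫ t, (φ (iv F τ δ (d' j) t) - φ (iv F τ δ d t))) -
      ∫ x, ⟪α j x, gA F τ δ φ d x⟫_ℝ ∂F.μ - ∫ x, ⟪η j x, gP F τ δ φ d x⟫_ℝ ∂F.μ

theorem Slab.lg (S : Slab X τ δ V w) (hφ : ContDiff ℝ ∞ φ) (oα : X.O2 α) (oη : X.O2 η)
    (h : ∀ i, RD.Lg X α η (d i) fun j => d' j i) (L : ℝ) : Lg X τ δ φ d d' α η L w := by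
  choose R hR using fun i => (h i).bd
  choose R' _ hR' using fun i => (h i).ub
  have c' : ∀ i j, Continuous (d' j i).h := fun i j =>
    (((h i).h.1 j).add (h i).c0).congr fun x => sub_add_cancel _ _
  have w0 := fun i => S.wi (h i).c0 (hR i)
  have w1 := fun i j => S.wi (c' i j) (hR' i j)
  have V0 := S.V0
  obtain ⟨T, T0, hT⟩ := exists_taylor hφ ((‖R‖ + ‖R'‖) * V)
  have n0 : ∀ t, ‖iv F τ δ d t‖ ≤ (‖R‖ + ‖R'‖) * V := fun t =>
    (pi_norm_le_iff_of_nonneg (by positivity)).2 fun i => (S.wn_le (hR i) t).trans (by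
      gcongr; exact (norm_le_pi_norm R i).trans (le_add_of_nonneg_right (norm_nonneg _)))
  have n1 : ∀ j t, ‖iv F τ δ (d' j) t‖ ≤ (‖R‖ + ‖R'‖) * V := fun j t =>
    (pi_norm_le_iff_of_nonneg (by positivity)).2 fun i => (S.wn_le (hR' i j) t).trans (by
      gcongr; exact (norm_le_pi_norm R' i).trans (le_add_of_nonneg_left (norm_nonneg _)))
  have i0 : Continuous (iv F τ δ d) := continuous_pi fun i => ((w0 i).contDiff_wn S.δ0).continuous
  have i1 : ∀ j, Continuous (iv F τ δ (d' j)) := fun j =>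
    continuous_pi fun i => ((w1 i j).contDiff_wn S.δ0).continuous
  have cf := hφ.continuous_fderiv (by simp)
  have ap : ∀ (A : (K → ℝ) →L[ℝ] ℝ) i, |A (Pi.single i 1)| ≤ ‖A‖ := fun A i => by
    simpa [Pi.norm_single] using A.le_opNorm (Pi.single i 1)
  have key : ∀ {e : K → RD M ι U P}, Continuous (iv F τ δ e) →
      (∀ t, ‖iv F τ δ e t‖ ≤ (‖R‖ + ‖R'‖) * V) → ∀ i, Continuous (co F τ δ φ e i) ∧
        (∀ t, |co F τ δ φ e i t| ≤ T) ∧ F.Cb (bt F τ δ φ e i) ∧ ∀ x, ‖bt F τ δ φ e i x‖ ≤ T :=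
    fun {e} c n i => by
      have a1 : Continuous (co F τ δ φ e i) := (cf.comp c).clm_apply continuous_const
      have a2 : ∀ t, |co F τ δ φ e i t| ≤ T := fun t => (ap _ i).trans (hT _ _ (n t) (n t)).2.1
      have a3 := cv_bounds S.δ0 a1.aestronglyMeasurable a2
      exact ⟨a1, a2, S.cb _ a3.1 fun k => ⟨_, a3.2.2 k⟩, fun x => a3.2.1 _⟩
  have k0 := key i0 n0
  have k1 := fun j => key (i1 j) (n1 j)
  have t1 := fun i => S.t2_wn (h i).h (R := R' i + R i) fun j x =>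
    (norm_sub_le _ _).trans (add_le_add (hR' i j x) (hR i x))
  have e1 : ∀ j t, (fun i => wn F.μ τ δ (fun x => (d' j i).h x - (d i).h x) t) =
      iv F τ δ (d' j) t - iv F τ δ d t := fun j t =>
    funext fun i => wn_sub S.δ0 (w1 i j) (w0 i) t
  have pf : ∀ i, Pf X (bt F τ δ φ d i) fun j => bt F τ δ φ (d' j) i := fun i =>
    ⟨(k0 i).2.2.1, fun j => (k1 j i).2.2.1, ⟨T, (k0 i).2.2.2⟩, ⟨T, T0, fun j => (k1 j i).2.2.2⟩,
      (S.o2_cv (S.t2_dom t1 (g := fun j t => co F τ δ φ (d' j) i t - co F τ δ φ d i t)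
        (fun j => (k1 j i).1.sub (k0 i).1) (L := T) fun j t => by
          rw [e1]; exact (ap (_ - _) i).trans (hT _ _ (n0 t) (n1 j t)).2.2.2.1)).congr fun j x => by
        simp only [bt, cv_eq_wn]
        exact (wn_sub S.δ0 (wi_of_bdd S.δ0 (k1 j i).1.aestronglyMeasurable (k1 j i).2.1)
          (wi_of_bdd S.δ0 (k0 i).1.aestronglyMeasurable (k0 i).2.1) _).symm⟩
  have lA := fun i => (h i).wA _ (pf i).q
  have lP := fun i => (h i).wP _ (pf i).q
  refine ⟨(Cx.O2.sum Finset.univ fun i _ => (h i).A _ _ (pf i)).congr fun j x =>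
      (Finset.sum_sub_distrib _ _).symm, (Cx.O2.sum Finset.univ fun i _ =>
      (h i).P _ _ (pf i)).congr fun j x => (Finset.sum_sub_distrib _ _).symm,
    Cx.Lw.sum _ fun i _ => lA i, Cx.Lw.sum _ fun i _ => lP i, fun hX hL => ?_⟩
  obtain ⟨-, -, C, C0, hC⟩ := S.t2_dom t1 (g := fun j t => ‖iv F τ δ (d' j) t - iv F τ δ d t‖)
    (fun j => ((i1 j).sub i0).norm) (L := 1) fun j t => by rw [e1, one_mul, abs_norm]
  have := S.sf
  have f1 := fun j i => integral_mul_wn S.δ0 S.ct.aestronglyMeasurable ((h i).h.int hX j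
    (Cx.lw_bd (v := fun _ => (1 : ℝ)) continuous_const ⟨1, by simp⟩) ((h i).h.1 j) (K := 1)
      (by simp)) (k0 i).1.aestronglyMeasurable (k0 i).2.1
  have f2 := fun j => integrable_finsetSum Finset.univ fun i _ => (f1 j i).1
  have f3 : ∀ j t, ‖φ (iv F τ δ (d' j) t) - φ (iv F τ δ d t) - ∑ i, co F τ δ φ d i t •
      wn F.μ τ δ (fun x => (d' j i).h x - (d i).h x) t‖ ≤
      T * |L| * (w j t * ‖iv F τ δ (d' j) t - iv F τ δ d t‖ ^ 2) := fun j t => by
    have a1 := (hT _ _ (n0 t) (n1 j t)).2.2.2.2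
    have a2 := mul_le_mul_of_nonneg_right ((hL j t).trans (mul_le_mul_of_nonneg_right
      (le_abs_self L) (S.nn j t))) (mul_nonneg T0 (sq_nonneg ‖iv F τ δ (d' j) t - iv F τ δ d t‖))
    nth_rw 1 [← e1] at a1
    rw [pi_eq_sum_univ' fun i => wn F.μ τ δ _ t] at a1
    simp only [map_sum, map_smul, smul_eq_mul, co, mul_comm (fderiv ℝ φ _ _)] at a1 ⊢
    linarith
  have f4 := fun j => ((hC j).1.const_mul _).mono' ((((hφ.continuous.comp (i1 j)).sub
    (hφ.continuous.comp i0)).aestronglyMeasurable.sub (f2 j).1)) (.of_forall (f3 j))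
  refine ⟨fun j => ((f4 j).add (f2 j)).congr (.of_forall fun t => sub_add_cancel _ _), (Cx.O1.add ⟨T * |L| * C, by positivity, fun j =>
    (norm_integral_le_of_norm_le ((hC j).1.const_mul _) (.of_forall (f3 j))).trans
      (((hC j).mul (by positivity)).2.trans_eq (by ring))⟩
    (Cx.O1.sum Finset.univ fun i _ => (h i).o1 hX _ (pf i).q)).congr fun j => ?_⟩
  have f5 := integral_add (f4 j) (f2 j)
  simp only [Pi.sub_apply, comp_apply, sub_add_cancel] at f5
  simp only [f5, gA, gP, inner_sum, Finset.sum_sub_distrib]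
  rw [integral_finsetSum _ fun i _ => (f1 j i).1, Finset.sum_congr rfl fun i _ => (f1 j i).2,
    integral_finsetSum _ fun i _ => oα.inner hX j (lA i),
    integral_finsetSum _ fun i _ => oη.inner hX j (lP i)]
  simp only [smul_eq_mul, bt]
  ring

end Crest.Agent.X212.Lg24
end
end

-- ▼ part X212/Lg24/Den
section

/-!
# Row 212, KP-LG (helper24): Lipschitz bound and gradient identity for the densities
-/

set_option autoImplicit false
set_option linter.unusedSectionVars false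
noncomputable section
open scoped Manifold ContDiff Topology InnerProductSpace
open MeasureTheory Set Function Filter

namespace Crest.Agent.X212.Lg24
open An Sob92 Dgr80 Cyl58
open Cyc79 (Pp Cy Ex cb_sm)
open Nd18 (vr)

variable {E : Type} [NormedAddCommGroup E] [NormedSpace ℝ E] [FiniteDimensional ℝ E]
  [MeasurableSpace E] [BorelSpace E]
  {HM : Type} [TopologicalSpace HM] {I : ModelWithCorners ℝ E HM} [I.Boundaryless]
  {M : Type} [TopologicalSpace M] [ChartedSpace HM M] [IsManifold I ∞ M]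
  [MeasurableSpace M] [T2Space M] [BorelSpace M] [SecondCountableTopology M]
  {ι : Type} [Fintype ι] {J : Type}

section gen
variable {U V P : Type} [NormedAddCommGroup U] [InnerProductSpace ℝ U] [CompleteSpace U]
  [NormedAddCommGroup V] [InnerProductSpace ℝ V] [FiniteDimensional ℝ V] [CompleteSpace V]
  [NormedAddCommGroup P] [InnerProductSpace ℝ P] {F : Fr I M ι} {X : Cx F J} {α : J → M → Fm ι U}

theorem lip_dq' (R : ℝ) : ∃ K, 0 ≤ K ∧ ∀ v w : V, ‖v‖ ≤ R →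
    (∀ l, ‖dq (v + w) l - dq v l‖ ≤ K * ‖w‖ * ‖l‖) ∧ ‖nq (v + w) - nq v - dq v w‖ ≤ K * ‖w‖ * ‖w‖ := by
  obtain ⟨K, K0, hK⟩ := lip_dq (V := V) (R + 1)
  refine ⟨K + 4, by positivity, fun v w hv => ?_⟩
  have n := norm_nonneg w
  rcases le_total ‖w‖ 1 with h | h
  · have := hK v (v + w) (by linarith) ((norm_add_le _ _).trans (add_le_add hv h))
    rw [add_sub_cancel_left] at this
    exact ⟨fun l => ((dq (v + w) - dq v).le_opNorm l).trans (mul_le_mul_of_nonneg_right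
      (this.1.trans (by nlinarith)) (norm_nonneg _)), this.2.trans (by nlinarith)⟩
  · have a := lip_nq v (v + w)
    rw [add_sub_cancel_left] at a
    have k : 4 ≤ (K + 4) * ‖w‖ := by nlinarith
    exact ⟨fun l => (norm_sub_le _ _).trans (by
      nlinarith [norm_dq (v + w) l, norm_dq v l, norm_nonneg l]),
      (norm_sub_le _ _).trans (by nlinarith [norm_dq v w])⟩

theorem lg_nq {Q : (M → V) → Prop} {Φ : M → V} {φ : J → M → V} (hQ : ∀ u, Q u → Continuous u)
    (hΦ : F.Cb Φ) (oφ : X.O2 φ) (q : Q fun x => nq (Φ x)) (q' : ∀ j, Q fun x => nq (Φ x + φ j x)) :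
    RS.Lg Q X (fun _ => Q) α φ (sd0 ι U Φ) fun j => sd0 ι U fun x => Φ x + φ j x := by
  obtain ⟨R, hR⟩ := cb_bd hΦ
  obtain ⟨K, K0, hK⟩ := lip_dq' (V := V) R
  have k := fun j x => hK (Φ x) (φ j x) (hR x)
  have c := (cb_sm hΦ).continuous
  have c0 := cd_dq.continuous.comp c
  have c1 := fun j => cd_dq.continuous.comp (c.add (oφ.1 j))
  have o := oφ.dom (fun j => (hQ _ (q' j)).fun_sub (hQ _ q)) (K := 2) fun j x => by
    simpa only [add_sub_cancel_left] using lip_nq (Φ x) (Φ x + φ j x)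
  have w : ∀ l, Q l → Bd l → X.Lw fun x => dq (Φ x) (l x) := fun l h b =>
    (Cx.lw_bd (hQ l h) b).dom (c0.clm_apply (hQ l h)) fun x => norm_dq _ _
  refine ⟨⟨q, q', ⟨1, fun _ => norm_nq _⟩, ⟨1, zero_le_one, fun _ _ => norm_nq _⟩, o⟩,
    fun _ _ _ => Cx.o2_zero.congr fun _ _ => sub_self _, fun l l' h => ?_,
    fun _ _ _ => Cx.lw_bd continuous_const ⟨0, fun _ => norm_zero.le⟩, w, fun hX l h b => ?_⟩
  · refine ((h.d.dom (w := fun j x => dq (Φ x + φ j x) (l' j x - l x))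
      (fun j => (c1 j).clm_apply (h.d.1 j)) fun j x => norm_dq _ _).add
      (oφ.ub h.bd.ub (w := fun j x => dq (Φ x + φ j x) (l x) - dq (Φ x) (l x))
        (fun j => ((c1 j).clm_apply (hQ _ h.q)).sub (c0.clm_apply (hQ _ h.q))) K0 fun j x =>
          (k j x).1 _)).congr fun j x => ?_
    simp [sd0]
  · have b' := b
    obtain ⟨L, hL⟩ := b'
    refine (oφ.o1 hX oφ (f := fun j x => ⟪nq (Φ x + φ j x) - nq (Φ x) - dq (Φ x) (φ j x), l x⟫_ℝ)
      (K := K * |L|) (by positivity) fun j x => (abs_real_inner_le_norm _ _).trans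
        ((mul_le_mul (k j x).2 ((hL x).trans (le_abs_self L)) (norm_nonneg _)
          (by positivity)).trans_eq (by ring))).congr fun j => ?_
    simp only [sd0, inner_zero_right, integral_zero, sub_zero]
    rw [← integral_sub (o.inner hX j (Cx.lw_bd (hQ l h) b)) (oφ.inner hX j (w l h b))]
    simp only [inner_sub_left (nq _ - nq _), dq_symm]

variable {κ : Type} [Fintype κ] [DecidableEq κ] {A : ι → M → En κ} {A' : J → ι → M → En κ}
  {p : M → En κ}

theorem lz_qp {r : CL U (En κ)} {φ : J → M → P} (h : Pp F A p) (h' : ∀ j, Pp F (A' j) p)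
    (e : ∀ j a x, A' j a x = A a x + r (α j x a)) (sα : ∀ j, Sm I (α j)) (oα : X.O2 α)
    (oφ : X.O2 φ) : Lz A (QP F p) r X (fun _ => QP F p) A' α φ :=
  ⟨⟨h.mc, fun j => (h' j).mc, e, sα, oα, cls_qp h, fun j => cls_qp (h' j), fun u hu => by
    choose K hK using bn_qp h hu
    exact ⟨∑ a, |K a|, fun _ x a _ => ((hK a x).trans (le_abs_self _)).trans
      (Finset.single_le_sum (f := fun a => |K a|) (fun _ _ => abs_nonneg _) (Finset.mem_univ a))⟩⟩,
    oφ, fun _ hu => bn_qp h hu, fun _ _ => QP.smul, fun _ _ _ => QP.smul⟩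

end gen

variable {lam : Type} [Fintype lam] {r : ℕ} {B : Base M ι lam} {G : Geo I M ι lam}
  {c : Cfg M ι lam r} {X : Cx G.F J} {α : J → M → Fm ι c.m.A} {φ : J → M → c.m.V}

theorem rsP_eq (c : Cfg M ι lam r) : rsP c = sd0 ι c.m.A c.Φ :=
  congrArg (RS.mk _ _) (funext fun _ => funext fun _ => (dq_apply _ _).symm)

variable (B X α φ) in
/-- a configuration and a family of variations -/
structure Fam : Prop where
  gd : Gd B G c
  gd' : ∀ j, Gd B G (vr c (α j) (φ j))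
  sα : ∀ j, Sm I (α j)
  oα : X.O2 α
  oφ : X.O2 φ
  ex : ∃ ψ k, Ex X ψ k

variable (X α φ) in
/-- the estimates for a density -/
def LD (d : Den M ι lam r) : Prop :=
  RD.Lg (U := c.m.A) (P := c.m.V) X α φ (d.rd c) fun j => d.rd (vr c (α j) (φ j))

namespace Fam
variable (h : Fam B X α φ)
include h

theorem lgP : RS.Lg (QP G.F c.m.p) X (fun _ => QP G.F c.m.p) α φ (rsP c)
    fun j => rsP (vr c (α j) (φ j)) := by
  simp only [rsP_eq]
  exact lg_nq (fun _ hu => (cb_sm hu.1).continuous) h.gd.Φ h.oφ h.gd.q_nP fun j => (h.gd' j).q_nP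

/-- spinor densities -/
theorem sw {T : Pk M lam} {u v : SW M} (hT : T.OK G.F) (hu : SW.OK G.F u) (hv : SW.OK G.F v) :
    LD X α φ (Den.sw G.F T u v) := by
  have z := lz_qp (r := opL) h.gd.ppS (fun j => (h.gd' j).ppS) (fun _ _ _ => rfl) h.sα h.oα h.oφ
  have w := fun {u : SW M} (hu : SW.OK G.F u) => h.lgP.wd z (w := u.map (ltS G.F c))
    (List.forall_mem_map.2 fun t ht => ⟨h.gd.ok_lt (hu t ht), fun _ => h.gd.ok_lt (hu t ht), by
      cases e : ltS G.F c t
      exacts [cb_bd (h.gd.cb_lt (hu t ht) _ e), trivial]⟩)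
  have e1 : ∀ j, ltS G.F (vr c (α j) (φ j)) = ltS G.F c := fun j => funext fun t => by
    cases t <;> rfl
  have e2 : ∀ j, pk (vr c (α j) (φ j)) T = pk c T := fun j => by cases T <;> rfl
  simp only [LD, rd_sw, e1, e2]
  exact RS.Lg.pair z (w hu) (w hv) ⟨h.gd.ok_pk hT, fun _ => h.gd.ok_pk hT, cb_bd (h.gd.cb_pk hT)⟩
    (pk_symm h.gd.ok T)

/-- cyclic densities -/
theorem cy {d d' : Cy M} {w w' : List (La M)} (hd : d.OK G.F) (hw : ∀ t ∈ w, t.OK G.F)
    (hd' : d'.OK G.F) (hw' : ∀ t ∈ w', t.OK G.F) :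
    LD X α φ (Den.sed ((d.sed G.F).wd G.F w) ((d'.sed G.F).wd G.F w')) := by
  have z := lz_qp (r := adR _) h.gd.pp (fun j => (h.gd' j).pp) (fun _ _ _ => map_add Wz78.adcL _ _)
    h.sα h.oα h.oφ
  have e1 : ∀ j, laS (vr c (α j) (φ j)) = laS c := fun j => funext fun t => by cases t <;> rfl
  have k := fun {d : Cy M} {w : List (La M)} (hd : d.OK G.F) (hw : ∀ t ∈ w, t.OK G.F) =>
    (Cyc79.Lc.lg (Φ := fun j x => c.Φ x + φ j x) (z := fun _ => c.z) ⟨h.gd.toCO,
      fun j => (h.gd' j).toCO, hd, h.sα, h.oα, h.ex⟩ φ (fun _ hu => hu.1) (fun _ _ hu => hu.1)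
      (h.gd.q_cy hd) fun j => (h.gd' j).q_cy hd).wd z (w := w.map (laS c))
      (List.forall_mem_map.2 fun t ht => ⟨Gd.ok_la (hw t ht), fun _ => Gd.ok_la (hw t ht), by
        cases t
        exacts [cb_bd (Cb_smul (hw _ ht) (Cb_const _)), trivial]⟩)
  have o := ok_qp (F := G.F) (p := c.m.pg) Wz78.inner_pg (Cb_const 1) fun _ _ => rfl
  simp only [LD, rd_sed, rs_wd, e1]
  exact RS.Lg.pair z (k hd hw) (k hd' hw') ⟨o, fun _ => o, ⟨_, fun _ => le_rfl⟩⟩ fun _ _ _ => rfl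

end Fam

end Crest.Agent.X212.Lg24
end
end

-- ▼ part X212/Lg24/Main

/-!
# Row 212, KP-LG (helper24): the delay gradient on the cylinder is Lipschitz and a gradient
-/

set_option autoImplicit false
set_option linter.unusedSectionVars false
noncomputable section
open scoped Manifold ContDiff Topology InnerProductSpace
open MeasureTheory Set Function Filter Real

namespace Crest.Agent.X212.Lg24
open An Map77 Sob92 Nd18 Dec35 Cyf70 Dgr80 Nka63
open Cyc79 (Ex cb_sm)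

section gen
variable {E : Type} [NormedAddCommGroup E] [NormedSpace ℝ E] [FiniteDimensional ℝ E]
  [MeasurableSpace E] [BorelSpace E]
  {HM : Type} [TopologicalSpace HM] {I : ModelWithCorners ℝ E HM} [I.Boundaryless]
  {M : Type} [TopologicalSpace M] [ChartedSpace HM M] [IsManifold I ∞ M]
  [MeasurableSpace M] [T2Space M] [BorelSpace M] [SecondCountableTopology M]
  {ι : Type} [Fintype ι] {lam : Type} [Fintype lam] {B : Base M ι lam} {G : Geo I M ι lam}
  {c : Cfg M ι lam 0} {a u : M → Cv c}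

theorem gd_cf (h : Bs B G c) (hu : G.F.Cb u) (ht : Tg B c u) : Gd B G (cf c u) :=
  have k := cf_adm h.adm (cb_sm hu) ht
  ⟨⟨h.hB, h.hG, k.ok, k.conn, h.tame, fun a => Cb_add (h.cW a) (Cb_clm (oa a) hu),
    h.dat.pg h.hB h.pmx⟩, k, Cb_add h.cΦ (Cb_clm fp hu), h.dat.p, h.dat.ρ, h.dat.j⟩

theorem cf_cf {T : Sort*} (f : c.m.Cn → (M → c.m.V) → T) :
    f (cf (cf c a) u).W (cf (cf c a) u).Φ = f (cf c (a + u)).W (cf c (a + u)).Φ :=
  congrArg₂ f (funext fun _ => funext fun _ => by simp [cf, vr, Md.addC, add_assoc])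
    (funext fun _ => by simp [cf, vr, add_assoc])

theorem dcut_one {r : ℕ} (d : Den M ι lam r) : dcut (fun _ => 1) d = d := by simp [dcut]

theorem dg_eq {K : Type} [Fintype K] [DecidableEq K] (N : DG M ι lam 0 K) (F : Fr I M ι)
    (c : Cfg M ι lam 0) {τ : M → ℝ} {δ : ℝ} (hτ : N.τ = τ) (hc : ∀ t, N.cut t = 1)
    (hδ : N.δ = fun _ => δ) (x : M) : N.gA F c x = gA F τ δ N.φ (fun i => (N.d i).rd c) x ∧
      N.gP F c x = gP F τ δ N.φ (fun i => (N.d i).rd c) x := by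
  unfold DG.gA DG.gP DG.β DG.co DG.Iv
  simp only [hτ, hc, hδ, one_mul]
  exact ⟨rfl, rfl⟩

theorem nw_zero {V : Type} [NormedAddCommGroup V] [InnerProductSpace ℝ V] (F : Pre I M ι)
    (ψ : M → ℝ) (u : M → V) : Dec35.nw F 0 ψ u = √(∫ x, exp (2 * ψ x) * ‖u x‖ ^ 2 ∂F.μ) := by
  simp only [Dec35.nw, Pre.nrm, Pre.ip, real_inner_self_eq_norm_sq, norm_smul, mul_pow, two_mul,
    exp_add, Real.norm_eq_abs, sq_abs, sq (exp _)]

end gen

/-- exponents of slope at most `d` -/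
def Sl (d : ℝ) (ψ : ℝ → ℝ) : Prop := ContDiff ℝ ∞ ψ ∧ ∀ t, |deriv ψ t| ≤ d

/-- `exp (2 lb) = b` -/
def lb (γ t : ℝ) : ℝ := log (b γ t) / 2

section sl
variable {d : ℝ} {ψ : ℝ → ℝ}

theorem Sl.lip (h : Sl d ψ) (s t : ℝ) : |ψ s - ψ t| ≤ d * |s - t| :=
  convex_univ.norm_image_sub_le_of_norm_deriv_le (fun x _ => h.1.differentiable (by simp) x)
    (fun x _ => h.2 x) trivial trivial

theorem Sl.neg (h : Sl d ψ) : Sl d fun t => -ψ t := ⟨h.1.neg, fun t => by simpa using h.2 t⟩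

theorem exp_lb (d0 : 0 < d) (t : ℝ) : exp (2 * lb d t) = b d t := by
  rw [lb, mul_div_cancel₀ _ two_ne_zero, exp_log (b_pos d0 t)]

theorem sl_lb (d0 : 0 < d) : Sl d (lb d) := by
  refine ⟨((contDiff_b d).log fun t => (b_pos d0 t).ne').div_const 2, fun t => ?_⟩
  have p := b_pos d0 t
  rw [show deriv (lb d) t = _ from (((hasDerivAt_b d t).log p.ne').div_const 2).deriv, abs_div,
    abs_div, abs_of_pos p, abs_two]
  linarith [(div_le_iff₀ p).2 (abs_deriv_b_le d0 t)]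

end sl

variable {E3 : Type} [NormedAddCommGroup E3] [NormedSpace ℝ E3] [FiniteDimensional ℝ E3]
  [MeasurableSpace E3] [BorelSpace E3]
  {H3 : Type} [TopologicalSpace H3] {I3 : ModelWithCorners ℝ E3 H3} [I3.Boundaryless]
  {Y : Type} [TopologicalSpace Y] [ChartedSpace H3 Y] [IsManifold I3 ∞ Y] [T2Space Y]
  [MeasurableSpace Y] [BorelSpace Y] [SecondCountableTopology Y] [CompactSpace Y]
  {κ : Type} [Fintype κ] {lam : Type} [Fintype lam]
  {N : ND Y lam} {D : YD I3 Y κ lam} {β : YC Y κ lam} {J : Type} {d δ : ℝ} {f : ℝ → ℝ}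
  {ψ : J → ℝ → ℝ} {X : Cx D.Z J}

theorem Dn (hf : ContDiff ℝ ∞ f) : D.Z.D none (fun x => f x.2) = fun x => deriv f x.2 :=
  D_none_snd D.F.toPre hf

theorem Ds (hf : ContDiff ℝ ∞ f) (a : κ) : D.Z.D (some a) (fun x => f x.2) = 0 :=
  D_some_snd D.F.toPre hf a

theorem sum_D (hf : ContDiff ℝ ∞ f) (x : Y × ℝ) :
    ∑ a, D.Z.D a (fun x => f x.2) x ^ 2 = deriv f x.2 ^ 2 := by simp [Dn hf, Ds hf]

theorem lop_snd (hf : ContDiff ℝ ∞ f) (x : Y × ℝ) :
    Mp86.Lop (IC I3) D.Z.e D.Z.dv (fun x => f x.2) x = deriv (deriv f) x.2 := by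
  change ∑ a, (D.Z.D a (D.Z.D a fun x => f x.2) x + D.Z.dv a x • D.Z.D a (fun x => f x.2) x) = _
  have z : ∀ a, D.Z.D (some a) (0 : Y × ℝ → ℝ) = 0 := Ds (f := fun _ => 0) contDiff_const
  simp [Dn hf, Ds hf, Dn (Neck67.cd_deriv hf), show D.Z.dv none x = 0 from rfl, z]

theorem cbs_snd (hf : ContDiff ℝ ∞ f) {A : ℕ → ℝ} (h : ∀ i t, |iteratedDeriv i f t| ≤ A i) :
    D.Z.CBs (fun x => f x.2) fun k => ∑ i ∈ Finset.range (k + 1), |A i| :=
  ⟨sm_snd hf, fun k => Cht98.CB_snd D.F.toPre k hf fun i hi t => ((h i t).trans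
    (le_abs_self _)).trans (Finset.single_le_sum (f := fun i => |A i|) (fun _ _ => abs_nonneg _)
      (Finset.mem_range.2 (by omega)))⟩

theorem wg_exp (h : Sl d f) (hd : d ≤ 1 / 4) : Wg D.Z fun x => exp (2 * f x.2) := by
  have c : ContDiff ℝ ∞ fun t => exp (2 * f t) := (contDiff_const.mul h.1).exp
  refine ⟨sm_snd c, fun _ => exp_pos _, fun x => ?_⟩
  rw [sum_D c, (((h.1.differentiable (by simp) x.2).hasDerivAt.const_mul 2).exp).deriv]
  have := pow_le_pow_left₀ (abs_nonneg _) ((h.2 x.2).trans hd) 2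
  rw [sq_abs] at this
  nlinarith [mul_le_mul_of_nonneg_left this (sq_nonneg (exp (2 * f x.2)))]

theorem slab (δ0 : 0 < δ) (hd : 4 * d ≤ δ) (h : ∀ j, Sl d (ψ j))
    (e : ∀ j x, X.W j x = exp (2 * ψ j x.2)) :
    Slab X Prod.snd δ (D.F.μ.real univ) fun j t => exp (2 * ψ j t) := by
  refine ⟨δ0, inferInstanceAs (SFinite (D.F.μ.prod volume)), continuous_snd, fun k hk =>
    ⟨hk.comp_snd D.F.μ, integral_fun_snd (μ := D.F.μ) k⟩, fun f hf hb => ?_, e,
    fun j => (continuous_const.mul (h j).1.continuous).rexp, fun _ _ => (exp_pos _).le,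
    fun j s t => ?_⟩
  · choose A hA using hb
    exact ⟨_, cbs_snd hf hA⟩
  · rw [← exp_add, exp_le_exp]
    nlinarith [(abs_le.1 ((h j).lip s t)).1, abs_nonneg (s - t)]

theorem ex (d0 : 0 ≤ d) (h1 : cb 1 1 * (16 * d) ≤ 1 / 16) (h2 : cb 1 2 * (16 * d) ≤ 1 / 32)
    (h : ∀ j, Sl d (ψ j)) (e : ∀ j x, X.W j x = exp (2 * ψ j x.2)) : ∃ χ k, Ex X χ k := by
  choose χ s c g using fun j => smooth (h j).1.continuous d0 (h j).lip
  have k : ∀ {x y : ℝ}, |x - y| ≤ 16 * d → exp y ^ 2 ≤ exp (32 * d) * exp x ^ 2 := fun h => by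
    rw [← exp_nat_mul, ← exp_nat_mul, ← exp_add, exp_le_exp]
    push_cast
    linarith [(abs_le.1 h).1]
  have e' : ∀ j x, X.W j x = exp (ψ j x.2) ^ 2 := fun j x => by rw [e, two_mul, exp_add, sq]
  refine ⟨fun j x => χ j x.2, exp (32 * d), fun j => sm_snd (s j), fun a => ?_, fun j x => ?_,
    fun j x => ?_, fun j x => e' j x ▸ k (c j _),
    fun j x => e' j x ▸ k ((abs_sub_comm _ _).trans_le (c j _))⟩
  · cases a with
    | none => exact ⟨_, fun j => Dn (D := D) (s j) ▸ cbs_snd (Neck67.cd_deriv (s j)) fun i t => by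
        rw [← iteratedDeriv_succ']; exact g j i t⟩
    | some a => simp only [Ds (s _)]; exact Ell97.UB.const 0
  · have := pow_le_pow_left₀ (abs_nonneg _) ((g j 0 x.2).trans h1) 2
    rw [sq_abs, zero_add, iteratedDeriv_one] at this
    rw [sum_D (s j)]; linarith
  · have := (le_abs_self _).trans ((g j 1 x.2).trans h2)
    rwa [iteratedDeriv_succ, iteratedDeriv_one, ← lop_snd (D := D) (s j)] at this

theorem ld (h : N.OK D) {c : Cfg (Y × ℝ) (Option κ) lam 0} {α φ} (k : Fam (G := D.G) (c := c) D.B X α φ)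
    (i : N.J) : LD (G := D.G) X α φ ((N.dg D.nk).d i) := by
  have e : D.nk.χ = fun _ => 1 := funext (nk_χ D)
  rcases i with j | j | j
  · have := h.d0 j
    simp only [ND.dg, Sum.elim_inl]
    generalize N.d0 j = y at this
    cases y <;> rw [Nk.den, e, dcut_one]
    exacts [k.sw trivial (D.nk.ok_sw this.1) (D.nk.ok_sw this.2), k.cy (ok_cyc D.nk this.1)
      (D.nk.ok_las this.2.1) (ok_cyc D.nk this.2.2.1) (D.nk.ok_las this.2.2.2)]
  all_goals
    simp only [ND.dg, Sum.elim_inl, Sum.elim_inr, Nk.dre, Nk.dim, e, dcut_one]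
    exact k.sw (D.nk.cb_ext (h.d2 j).1) (D.nk.ok_sw (h.d2 j).2.1) (D.nk.ok_sw (h.d2 j).2.2)

variable (N D β) in
/-- the densities at `β + a` -/
def rz (a : Cz β) (i : N.J) : RD (Y × ℝ) (Option κ) (cy β).m.A (cy β).m.V :=
  ((N.dg D.nk).d i).rd (cf (cy β) a)

variable (N D β) in
/-- the integrand of the delay functional -/
def fz (a : Cz β) (t : ℝ) : ℝ := N.φ (N.cx (iv D.Z Prod.snd N.δ (rz N D β a) t))

theorem gz_eq (a : Cz β) (x : Y × ℝ) : gz N D β a x = (mbd D.B (cy β).m).pC x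
    (i1 _ _ (gA D.Z Prod.snd N.δ (fun x => N.φ (N.cx x)) (rz N D β a) x) +
      i2 _ _ (gP D.Z Prod.snd N.δ (fun x => N.φ (N.cx x)) (rz N D β a) x)) :=
  have e := dg_eq (N.dg D.nk) D.Z (cf (cy β) a) (nk_τ D) (nk_cut D) rfl x
  congrArg₂ (fun (p : Fm (Option κ) (cy β).m.A) (q : (cy β).m.V) =>
    (mbd D.B (cy β).m).pC x (i1 _ _ p + i2 _ _ q)) e.1 e.2

theorem cd_cx (h : N.OK D) : ContDiff ℝ ∞ fun x => N.φ (N.cx x) :=
  h.sm.comp ((contDiff_pi.2 fun _ => contDiff_apply _ _ _).prodMk (contDiff_pi.2 fun _ =>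
    Complex.equivRealProdCLM.symm.contDiff.comp
      ((contDiff_apply _ _ _).prodMk (contDiff_apply _ _ _))))

theorem ex_d {c : ℝ} (δ0 : 0 < δ) (c0 : 0 ≤ c) : ∃ d > 0, 4 * d ≤ δ ∧ (c + 1) * d ≤ 1 / 512 :=
  ⟨min (δ / 4) (1 / 512 / (c + 1)), by positivity, by linarith [min_le_left (δ / 4) (1 / 512 / (c + 1))],
    (le_div_iff₀' (by positivity)).1 (min_le_right _ _)⟩

theorem o2_clm {V W : Type} [NormedAddCommGroup V] [NormedSpace ℝ V] [NormedAddCommGroup W]
    [NormedSpace ℝ W] (L : V →L[ℝ] W) {v : J → Y × ℝ → V} (k : X.O2 v) : X.O2 fun j x => L (v j x) :=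
  k.dom (fun j => L.continuous.comp (k.1 j)) fun j x => L.le_opNorm (v j x)

section core
variable (h : Hz N D β) {a : Cz β} (ha : Vb D β a) {u : J → Cz β} (hu : ∀ j, Vb D β (u j))
  (o : X.O2 u)
include h ha hu o

theorem ld' (e : ∃ χ k, Ex X χ k) (i : N.J) : RD.Lg X (fun j x => fa (u j x))
    (fun j x => fp (u j x)) (rz N D β a i) fun j => rz N D β (a + u j) i := by
  have bs := bs_cyl h.ok h.adm
  have := ld h.nd (c := cf (cy β) a) ⟨gd_cf bs ha.cb ha.tg, fun j =>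
    (cf_cf (a := a) (u := u j) fun W Φ => Gd D.B D.G ⟨(cy β).m, W, Φ, β.z⟩).mpr
      (gd_cf bs (Cb_add ha.cb (hu j).cb) (ha.tg.add (hu j).tg)),
    fun j => cb_sm (Cb_clm fa (hu j).cb), o2_clm fa o, o2_clm fp o, e⟩ i
  have e' := fun j => cf_cf (T := RD _ _ (cy β).m.A (cy β).m.V) (a := a) (u := u j) fun W Φ =>
    ((N.dg D.nk).d i).rd ⟨(cy β).m, W, Φ, β.z⟩
  exact (congrArg (RD.Lg X _ _ (rz N D β a i)) (funext e')).mp this

theorem of_lg {L : ℝ} {w : J → ℝ → ℝ} (g : Lg X Prod.snd N.δ (fun x => N.φ (N.cx x)) (rz N D β a)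
    (fun j => rz N D β (a + u j)) (fun j x => fa (u j x)) (fun j x => fp (u j x)) L w) :
    (X.O2 fun j x => gz N D β (a + u j) x - gz N D β a x) ∧ (X.Big → (∀ j t, 1 ≤ L * w j t) →
      (∀ j, Integrable fun t => fz N D β (a + u j) t - fz N D β a t) ∧ X.O1 fun j =>
        (∫ t, (fz N D β (a + u j) t - fz N D β a t)) - ∫ x, ⟪gz N D β a x, u j x⟫_ℝ ∂D.Z.μ) := by
  have bs := bs_cyl h.ok h.adm
  obtain ⟨K, hK⟩ := cb_bd bs.cb_pC
  have o1 := (o2_clm (i1 _ (cy β).m.V) g.A).add (o2_clm (i2 (Fm (Option κ) (cy β).m.A) _) g.P)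
  refine ⟨(o1.dom (fun j => (cb_sm bs.cb_pC).continuous.clm_apply (o1.1 j)) fun j x =>
    (ContinuousLinearMap.le_opNorm _ _).trans (mul_le_mul_of_nonneg_right (hK x)
      (norm_nonneg _))).congr fun j x => ?_, fun hX hL => ⟨(g.o1 hX hL).1,
    (g.o1 hX hL).2.congr fun j => ?_⟩⟩
  · simp only [gz_eq, map_sub, map_add]
    abel
  · rw [sub_sub, ← integral_add ((o2_clm fa o).inner hX j g.wA) ((o2_clm fp o).inner hX j g.wP)]
    refine congrArg₂ _ rfl (congrArg _ (funext fun x => ?_))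
    rw [gz_eq, bs.ok.prjC.symm, (hu j).tg x, real_inner_comm, inner2]
    simp

end core

theorem core (h : Hz N D β) : ∃ d > 0, d ≤ 1 / 4 ∧ ∀ {J : Type} (X : Cx D.Z J) (ψ : J → ℝ → ℝ),
    (∀ j, Sl d (ψ j)) → (∀ j x, X.W j x = exp (2 * ψ j x.2)) → ∀ a, Vb D β a → ∀ u : J → Cz β,
    (∀ j, Vb D β (u j)) → X.O2 u → ∀ L,
    (X.O2 fun j x => gz N D β (a + u j) x - gz N D β a x) ∧ (X.Big →
      (∀ j t, 1 ≤ L * exp (2 * ψ j t)) →
      (∀ j, Integrable fun t => fz N D β (a + u j) t - fz N D β a t) ∧ X.O1 fun j =>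
        (∫ t, (fz N D β (a + u j) t - fz N D β a t)) - ∫ x, ⟪gz N D β a x, u j x⟫_ℝ ∂D.Z.μ) := by
  have c1 := cb_nonneg 1 1
  have c2 := cb_nonneg 1 2
  obtain ⟨d, d0, d1, d2⟩ := ex_d h.nd.δ0 (add_nonneg c1 c2)
  have a1 := mul_nonneg c1 d0.le
  have a2 := mul_nonneg c2 d0.le
  exact ⟨d, d0, by linarith, fun X ψ hψ e a ha u hu o L => of_lg h ha hu o
    ((slab h.nd.δ0 d1 hψ e).lg (cd_cx h.nd) (o2_clm fa o) (o2_clm fp o)
      (ld' h ha hu o (ex d0.le (by linarith) (by linarith) hψ e)) L)⟩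

variable (D) in
/-- the weights `exp (2 ψ j)` -/
def cx (hD : D.OK) (d0 : 0 < d) (d1 : d ≤ 1 / 4) (h : ∀ j, Sl d (ψ j)) (u : J → Cz β) : Cx D.Z J :=
  ⟨fun x => exp (2 * lb d x.2), fun j x => exp (2 * ψ j x.2),
    fun j => ∫ x, exp (2 * ψ j x.2) * ‖u j x‖ ^ 2 ∂D.Z.μ,
    amb_of_tame (tame_Z hD).choose_spec (wg_exp (sl_lb d0) d1) (by
      simp only [exp_lb d0]; exact (integrable_b d0).comp_snd D.F.μ),
    fun j => wg_exp (h j) d1, fun _ => integral_nonneg fun _ => by positivity⟩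

theorem vb (hD : D.OK) {u : Cz β} (h : Vr D β u) : Vb D β u :=
  ⟨h.fl.cb (tame_Z hD).choose_spec, h.tg⟩

theorem lp0 (h : Hz N D β) : Lp0 N D β := by
  obtain ⟨d, d0, d1, k⟩ := core h
  let J := {p : (ℝ → ℝ) × Cz β // Neck67.Sm p.1 ∧ (∀ t, |deriv p.1 t| ≤ d) ∧ Vr D β p.2}
  have s : ∀ j : J, Sl d j.1.1 := fun j => ⟨j.2.1.cd, j.2.2.1⟩
  have i : ∀ j : J, Integrable (fun x => exp (2 * j.1.1 x.2) * ‖j.1.2 x‖ ^ 2) D.Z.μ := fun j =>
    let ⟨A, hA⟩ := j.2.1.bd 0
    (MemLp.integrable_norm_pow (j.2.2.2.fl.fl 0) two_ne_zero).bdd_mul (c := exp (2 * A))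
      (wg_exp (D := D) (s j) d1).sm.continuous.aestronglyMeasurable (.of_forall fun x => by
        rw [Real.norm_of_nonneg (exp_pos _).le, exp_le_exp]; linarith [(abs_le.1 (hA x.2)).2])
  obtain ⟨-, C, C0, hC⟩ := (k (cx D h.ok d0 d1 s fun j => j.1.2) _ s (fun _ _ => rfl) 0
    ⟨Cb_const 0, Tg.zero⟩ (fun j => j.1.2) (fun j => vb h.ok j.2.2.2)
    ⟨fun j => j.2.2.2.fl.sm.continuous, 1, zero_le_one, fun j => ⟨i j, (one_mul _).ge⟩⟩ 0).1
  refine ⟨d, d0, √C, sqrt_nonneg C, fun ψ h1 h2 u hu => ?_⟩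
  have := (hC ⟨(ψ, u), h1, h2, hu⟩).2
  simp only [zero_add] at this
  rw [nw_zero, nw_zero, ← sqrt_mul C0]
  exact sqrt_le_sqrt this

theorem line (h : Hz N D β) {a v : Cz β} (ha : Vb D β a) (hv : Vb D β v)
    (hc : HasCompactSupport v) :
    (∀ s : ℝ, Integrable fun t => fz N D β (a + s • v) t - fz N D β a t) ∧ ∃ C, ∀ s : ℝ,
      |(∫ t, (fz N D β (a + s • v) t - fz N D β a t)) - s * ∫ x, ⟪gz N D β a x, v x⟫_ℝ ∂D.Z.μ| ≤
        C * s ^ 2 := by
  obtain ⟨d, d0, d1, k⟩ := core h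
  have s : ∀ _ : ℝ, Sl d fun t => -lb d t := fun _ => (sl_lb d0).neg
  have c := (cb_sm hv.cb).continuous
  have e : ∀ t, exp (2 * -lb d t) * exp (2 * lb d t) = 1 := fun t => by rw [← exp_add]; simp
  have b : ∀ t, exp (2 * lb d t) ≤ d := fun t => (exp_lb d0 t).trans_le (b_le d0 t)
  obtain ⟨i, C, -, hC⟩ := (k (cx D h.ok d0 d1 s fun s => s • v) _ s (fun _ _ => rfl) a ha
    (fun s => s • v) (fun s => ⟨Cb_smul (Cb_const s) hv.cb, hv.tg.smul fun _ => s⟩)
    ⟨fun s => c.const_smul s, 1, zero_le_one, fun t => ⟨Continuous.integrable_of_hasCompactSupport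
      ((wg_exp (D := D) (s t) d1).sm.continuous.mul ((c.const_smul t).norm.pow 2))
      (hc.mono fun x hx h => hx (by simp [h])), (one_mul _).ge⟩⟩ d).2
    ⟨fun _ _ => (e _).ge, d, fun _ => b _⟩ fun _ t => (e t).ge.trans (by
      rw [mul_comm]; exact mul_le_mul_of_nonneg_right (b t) (exp_pos _).le)
  refine ⟨i, C * ∫ x, exp (2 * -lb d x.2) * ‖v x‖ ^ 2 ∂D.Z.μ, fun s => ?_⟩
  have := hC s
  simp only [cx, Pi.smul_apply, real_inner_smul_right, norm_smul, mul_pow, Real.norm_eq_abs, sq_abs,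
    mul_left_comm _ (s ^ 2), integral_const_mul] at this
  exact this.trans_eq (by ring)

theorem grad (h : Hz N D β) : Grad N D β := by
  refine ⟨fun a => ∫ t, (fz N D β a t - fz N D β 0 t), fun a v ha hv ca cv => ?_⟩
  have i := (line h (a := 0) ⟨Cb_const 0, Tg.zero⟩ (vb h.ok ha) ca).1 1
  rw [zero_add, one_smul] at i
  obtain ⟨k, C, hC⟩ := line h (vb h.ok ha) (vb h.ok hv) cv
  refine hasDerivAt_iff_isLittleO_nhds_zero.2 ((Asymptotics.IsBigO.of_bound C (.of_forall fun s =>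
    ?_)).trans_isLittleO (Asymptotics.isLittleO_pow_id one_lt_two))
  have := integral_add (k s) i
  simp only [sub_add_sub_cancel] at this
  simp only [zero_add, zero_smul, add_zero, this, add_sub_cancel_right, norm_pow, Real.norm_eq_abs,
    sq_abs]
  exact hC s

/-- **KP-LG** -/
theorem lgStmt : LgStmt I3 Y κ lam := fun _ _ _ h => ⟨lp0 h, grad h⟩

end Crest.Agent.X212.Lg24
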